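import Vale.Agent.P317.MathlibUsed

namespace Vale.Agent.P317.Small

/-- A finite computation tree; the inner nodes are fair coin flips. -/
inductive Rnd (α : Type) : Type
  | leaf : α → Rnd α
  | flip : Rnd α → Rnd α → Rnd α

/-- Run a second randomised computation on the outcome of the first. -/
def Rnd.bind {α β : Type} : Rnd α → (α → Rnd β) → Rnd β
  | leaf a, g => g a
  | flip t u, g => flip (t.bind g) (u.bind g)

open Classical in
/-- The probability that the outcome satisfies `p`. -/
noncomputable def Rnd.prob {α : Type} (p : α → Prop) : Rnd α → ℝ
  | leaf a => if p a then 1 else 0
  | flip t u => (prob p t + prob p u) / 2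

/-- Instructions. Registers `0, 1, 2, …` hold natural numbers and, separately, finite sets. -/
inductive Op : Type
  /-- number register `x` := the literal `c` -/
  | const (x c : ℕ)
  /-- number register `x` := `y + z` (registers) -/
  | add (x y z : ℕ)
  /-- number register `x` := `y - z`, truncated at zero (registers) -/
  | sub (x y z : ℕ)
  /-- number register `x` := a fair coin in `{0, 1}` -/
  | coin (x : ℕ)
  /-- set register `S` := the empty set -/
  | clear (S : ℕ)
  /-- set register `S` := set register `T` -/
  | copy (S T : ℕ)
  /-- insert the number in register `x` into set register `S` -/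
  | insert (S x : ℕ)
  /-- remove the number in register `x` from set register `S` -/
  | erase (S x : ℕ)
  /-- number register `x` := 1 if the number in register `y` lies in set register `S`, else 0 -/
  | mem (x y S : ℕ)
  /-- number register `x` := 1 if oracle `i` accepts set register `S`, else 0 -/
  | ask (i : Bool) (x S : ℕ)

/-- Programs. -/
inductive Prog : Type
  /-- one instruction -/
  | op (a : Op)
  /-- first `c`, then `d` -/
  | seq (c d : Prog)
  /-- if register `x` is smaller than register `y` then `c` else `d` -/
  | cond (x y : ℕ) (c d : Prog)
  /-- repeat `c`; the number of repetitions is the value of register `x` at entry -/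
  | loop (x : ℕ) (c : Prog)

/-- Contents of the registers and the number of steps made so far. -/
structure State where
  num : ℕ → ℕ
  set : ℕ → Finset ℕ
  time : ℕ

/-- write a number register -/
def State.wn (s : State) (x v : ℕ) : Rnd State := .leaf { s with num := Function.update s.num x v }

/-- write a set register -/
def State.ws (s : State) (S : ℕ) (v : Finset ℕ) : Rnd State :=
  .leaf { s with set := Function.update s.set S v }

/-- Semantics of instructions, given two oracles. -/
def exec (o : Bool → Finset ℕ → Bool) (s : State) : Op → Rnd State
  | .const x c => s.wn x c
  | .add x y z => s.wn x (s.num y + s.num z)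
  | .sub x y z => s.wn x (s.num y - s.num z)
  | .coin x => .flip (s.wn x 0) (s.wn x 1)
  | .clear S => s.ws S ∅
  | .copy S T => s.ws S (s.set T)
  | .insert S x => s.ws S (Insert.insert (s.num x) (s.set S))
  | .erase S x => s.ws S ((s.set S).erase (s.num x))
  | .mem x y S => s.wn x (if s.num y ∈ s.set S then 1 else 0)
  | .ask i x S => s.wn x (if o i (s.set S) then 1 else 0)

/-- one step of time -/
def State.tick (s : State) : State := { s with time := s.time + 1 }

/-- iterate a randomised computation; each round costs one extra step -/
def iter (g : State → Rnd State) : ℕ → State → Rnd State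
  | 0, s => .leaf s
  | m + 1, s => (g s.tick).bind (iter g m)

/-- Semantics of programs, given two oracles; each instruction, each comparison and each start of
a loop costs one step. -/
def run (o : Bool → Finset ℕ → Bool) : Prog → State → Rnd State
  | .op a, s => exec o s.tick a
  | .seq c d, s => (run o c s).bind (run o d)
  | .cond x y c d, s => if s.num x < s.num y then run o c s.tick else run o d s.tick
  | .loop x c, s => iter (run o c) (s.num x) s.tick

open Classical in
/-- The independence oracles of two matroids on `{0, …, n - 1}`. -/
noncomputable def oracles {n : ℕ} (M₁ M₂ : Matroid (Fin n)) (i : Bool) (S : Finset ℕ) : Bool :=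
  decide ((if i then M₂ else M₁).Indep {x : Fin n | (x : ℕ) ∈ S})

/-- The input: `n`, `e`, `l` in the number registers `0, 1, 2`; all else is empty. -/
def input (n e l : ℕ) : State :=
  ⟨fun x => if x = 0 then n else if x = 1 then e else if x = 2 then l else 0, fun _ => ∅, 0⟩

end Vale.Agent.P317.Small
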